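import Vale.Agent.P267.H877.Iface
import Vale.Agent.P267.H877.Norms
import Vale.Agent.P267.H399.Calc3
import Vale.Agent.P267.H692.Iface

/-!
# P267 / XA-FIN (helper706), part 1: cut-offs, weights, scalar form of T1, limits at the inner end
-/

set_option linter.unusedSectionVars false
set_option linter.unusedVariables false

open scoped Manifold ContDiff ComplexConjugate Matrix Topology
open MeasureTheory Set Filter

noncomputable section

namespace Vale.Agent.P267.H706

open Vale.Agent.P267.FL Vale.Agent.P267.XT Vale.Agent.P267.H692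

variable {M : Type} [TopologicalSpace M] [ChartedSpace C2 M]

theorem one_le_infty : (1 : WithTop ℕ∞) ≤ ∞ := by norm_cast

theorem two_le_infty : (2 : WithTop ℕ∞) ≤ ∞ := by norm_cast

/-! ### weights -/

section weights

variable (D : XTData M)

/-- pointwise weighted bounds give bounds of the profile -/
theorem prof_le_ew {n : M → ℝ} {A δ : ℝ} (hA : 0 ≤ A)
    (h : ∀ x, n x ≤ A * Real.exp (δ * D.f x)) (j : ℤ) :
    D.prof n j ≤ (A * Real.exp |δ|) * ew δ j := by
  refine D.prof_le (by unfold ew; positivity) fun x hx => (h x).trans ?_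
  rw [ew, mul_assoc, ← Real.exp_add]
  gcongr
  have h1 := hx.1
  have h2 := hx.2
  have : δ * (D.f x - j) ≤ |δ| := by
    rcases abs_cases δ with ⟨h3, h4⟩ | ⟨h3, h4⟩ <;> rw [h3] <;> nlinarith
  linarith

/-- bounds of the profile give pointwise weighted bounds -/
theorem le_of_prof_ew {n : M → ℝ} (hn : Continuous n) {A δ : ℝ}
    (h : ∀ j : ℤ, D.prof n j ≤ A * ew δ j) (x : M) :
    n x ≤ (|A| * Real.exp |δ|) * Real.exp (δ * D.f x) := by
  have hx := D.mem_slab_floor x
  refine (D.le_prof hn hx).trans ((h _).trans ?_)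
  have h0 : A * ew δ ⌊D.f x⌋ ≤ |A| * ew δ ⌊D.f x⌋ :=
    mul_le_mul_of_nonneg_right (le_abs_self _) (Real.exp_pos _).le
  refine h0.trans ?_
  rw [ew, mul_assoc, ← Real.exp_add]
  gcongr
  have h1 := hx.1
  have h2 := hx.2
  have : -δ * (D.f x - ⌊D.f x⌋) ≤ |δ| := by
    rcases abs_cases δ with ⟨h3, h4⟩ | ⟨h3, h4⟩ <;> rw [h3] <;> nlinarith
  linarith

/-- a continuous function is bounded on `a ≤ f ≤ b` -/
theorem bdd_on {n : M → ℝ} (hn : Continuous n) (a b : ℝ) :
    ∃ C, 0 ≤ C ∧ ∀ x, a ≤ D.f x → D.f x ≤ b → n x ≤ C := by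
  obtain ⟨C, hC⟩ := ((D.f_proper a b).image hn).bddAbove
  exact ⟨max C 0, le_max_right _ _, fun x h1 h2 => (hC ⟨x, ⟨h1, h2⟩, rfl⟩).trans (le_max_left _ _)⟩

end weights

variable [IsManifold 𝓘(ℂ, C2) ω M] (D : XTData M)

theorem continuous_f : Continuous D.f := by
  have := Complex.continuous_re.comp D.f_smooth.continuous
  exact this

/-! ### cut-offs -/

/-- smooth functions of `f` -/
theorem reg_comp_f {χ : ℝ → ℝ} (hχ : ContDiff ℝ ∞ χ) :
    Reg0 ∞ 0 (fun x => ((χ (D.f x) : ℝ) : ℂ)) := by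
  rw [reg0_iff_at]
  intro x
  have h := (D.f_smooth.at x).comp (g := fun z : ℂ => ((χ z.re : ℝ) : ℂ))
    (Complex.ofRealCLM.contDiff.comp (hχ.comp Complex.reCLM.contDiff)).contDiffAt
  exact h

/-- `χ (f)`, `χ = 0` for `t ≤ s`, `χ = 1` for `t ≥ s + 1` -/
def cutO (s : ℝ) (x : M) : ℂ := ((Real.smoothTransition (D.f x - s) : ℝ) : ℂ)

/-- `1 - χ (f)`: equal to `1` for `f ≤ s`, `0` for `f ≥ s + 1` -/
def cutI (s : ℝ) (x : M) : ℂ := ((1 - Real.smoothTransition (D.f x - s) : ℝ) : ℂ)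

theorem reg_cutO (s : ℝ) : Reg0 ∞ 0 (cutO D s) :=
  reg_comp_f D (χ := fun t => Real.smoothTransition (t - s))
    (Real.smoothTransition.contDiff.comp (contDiff_id.sub contDiff_const))

theorem reg_cutI (s : ℝ) : Reg0 ∞ 0 (cutI D s) :=
  reg_comp_f D (χ := fun t => 1 - Real.smoothTransition (t - s))
    (contDiff_const.sub (Real.smoothTransition.contDiff.comp (contDiff_id.sub contDiff_const)))

theorem cutO_eq_zero {s : ℝ} {x : M} (h : D.f x ≤ s) : cutO D s x = 0 := by
  rw [cutO, Real.smoothTransition.zero_of_nonpos (by linarith)]; simp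

theorem cutO_eq_one {s : ℝ} {x : M} (h : s + 1 ≤ D.f x) : cutO D s x = 1 := by
  rw [cutO, Real.smoothTransition.one_of_one_le (by linarith)]; simp

theorem cutI_eq_one {s : ℝ} {x : M} (h : D.f x ≤ s) : cutI D s x = 1 := by
  rw [cutI, Real.smoothTransition.zero_of_nonpos (by linarith)]; simp

theorem cutI_eq_zero {s : ℝ} {x : M} (h : s + 1 ≤ D.f x) : cutI D s x = 0 := by
  rw [cutI, Real.smoothTransition.one_of_one_le (by linarith)]; simp

theorem norm_cutO_le (s : ℝ) (x : M) : ‖cutO D s x‖ ≤ 1 := by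
  rw [cutO, Complex.norm_real, Real.norm_eq_abs,
    abs_of_nonneg (Real.smoothTransition.nonneg _)]
  exact Real.smoothTransition.le_one _

theorem norm_cutI_le (s : ℝ) (x : M) : ‖cutI D s x‖ ≤ 1 := by
  rw [cutI, Complex.norm_real, Real.norm_eq_abs, abs_of_nonneg]
  · linarith [Real.smoothTransition.nonneg (D.f x - s)]
  · linarith [Real.smoothTransition.le_one (D.f x - s)]

theorem lt_nhds {x : M} {t : ℝ} (h : D.f x < t) : ∀ᶠ y in 𝓝 x, D.f y < t :=
  (continuous_f D).continuousAt.eventually_lt_const h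

theorem gt_nhds {x : M} {t : ℝ} (h : t < D.f x) : ∀ᶠ y in 𝓝 x, t < D.f y :=
  (continuous_f D).continuousAt.eventually_const_lt h

/-! ### root gap -/

theorem rootGap_mono {d' δ : ℝ} (h : D.RootGap d') (h0 : 0 < δ) (h1 : δ ≤ d') : D.RootGap δ where
  pos := h0
  const := by
    rintro v hv hv1 ⟨A, hA⟩
    refine h.const v hv hv1 ⟨|A|, fun x => (hA x).trans ?_⟩
    refine mul_le_mul (le_abs_self _) (Real.exp_le_exp.2 ?_) (Real.exp_pos _).le (abs_nonneg _)
    exact mul_le_mul_of_nonneg_right h1 (abs_nonneg _)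
  out := by
    rintro v ε hε hε' hv hv1 ⟨A, hA⟩
    refine h.out v ε hε (hε'.trans h1) hv hv1 ⟨|A|, fun x => (hA x).trans ?_⟩
    refine mul_le_mul (le_abs_self _) (Real.exp_le_exp.2 ?_) (Real.exp_pos _).le (abs_nonneg _)
    rcases le_total 0 (D.f x) with hf | hf
    · exact max_le_max le_rfl (mul_le_mul_of_nonneg_right h1 hf)
    · have : max (ε * D.f x) (δ * D.f x) = ε * D.f x :=
        max_eq_left (mul_le_mul_of_nonpos_right hε' hf)
      rw [this]
      exact le_max_left _ _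
  inn := h.inn

/-! ### scalar form of T1 -/

/-- `H¹_δ(M, O) = 0` in scalar form: weight `e^{δ f}` -/
def T1s (δ : ℝ) : Prop :=
  ∀ g : M → Fin 2 → ℂ, Reg1 ∞ 0 g → (∃ A, ∀ x, n1 D.h 0 g x ≤ A * Real.exp (δ * D.f x)) →
    (∀ x, dbar1 0 g x = 0) →
    ∃ u : M → ℂ, Reg0 ∞ 0 u ∧ (∃ A, ∀ x, ‖u x‖ ≤ A * Real.exp (δ * D.f x)) ∧
      ∀ x i, dbar0 0 u x i = g x i

variable {ι : Type} [Fintype ι] [DecidableEq ι]

/-- the basis vector -/
abbrev eb (i₀ : ι) : EuclideanSpace ℂ ι := EuclideanSpace.single i₀ 1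

theorem act_single (i₀ : ι) (v : EuclideanSpace ℂ ι) :
    LB.act (Matrix.single i₀ i₀ (1 : ℂ)) v = v i₀ • eb i₀ := by
  ext i
  simp only [LB.act, Matrix.mulVec, dotProduct, Matrix.single_apply, PiLp.smul_apply,
    EuclideanSpace.single_apply, smul_eq_mul]
  by_cases h : i = i₀
  · subst h
    simp
  · simp [h, Ne.symm h]

theorem eb_apply (i₀ : ι) : (eb i₀ : EuclideanSpace ℂ ι) i₀ = 1 := by simp

theorem act_smul_eb (i₀ : ι) (c : ℂ) :
    LB.act (Matrix.single i₀ i₀ (1 : ℂ)) (c • eb i₀) = c • eb i₀ := by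
  rw [act_single]; simp

theorem norm_eb (i₀ : ι) : ‖(eb i₀ : EuclideanSpace ℂ ι)‖ = 1 := by simp

/-- multiples of the basis vector -/
def toE (i₀ : ι) : ℂ →L[ℂ] EuclideanSpace ℂ ι := ContinuousLinearMap.toSpanSingleton ℂ (eb i₀)

@[simp] theorem toE_apply (i₀ : ι) (c : ℂ) : toE i₀ c = c • eb i₀ := by simp [toE]

/-- component -/
def pr (i₀ : ι) : EuclideanSpace ℂ ι →L[ℂ] ℂ := EuclideanSpace.proj i₀

@[simp] theorem pr_apply (i₀ : ι) (v : EuclideanSpace ℂ ι) : pr i₀ v = v i₀ := rfl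

theorem norm_apply_le (v : EuclideanSpace ℂ ι) (i : ι) : ‖v i‖ ≤ ‖v‖ := PiLp.norm_apply_le v i

theorem n1_smul_eb (i₀ : ι) (a : M → Fin 2 → ℂ) (x : M) :
    n1 D.h 0 (fun y i => a y i • (eb i₀ : EuclideanSpace ℂ ι)) x = n1 D.h 0 a x := by
  have h : nsq1 D.h (fun y i => a y i • (eb i₀ : EuclideanSpace ℂ ι)) x = nsq1 D.h a x := by
    simp only [nsq1, inner_smul_left, inner_smul_right, inner_self_eq_norm_sq_to_K, norm_eb]
    congr 1
    refine Finset.sum_congr rfl fun i _ => Finset.sum_congr rfl fun j _ => ?_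
    simp only [RCLike.inner_apply]
    push_cast
    ring
  rw [n1, n1, h]

theorem t1s_of_T1 {i₀ : ι} {δ : ℝ} (h : D.T1 (LB.triv i₀) (fun _ _ => 0) δ 0) : T1s D δ := by
  rintro g hg ⟨A, hA⟩ hcl
  have hsec : (LB.triv i₀ : LB M ι).Sec1 (fun y k => g y k • eb i₀) := by
    intro x k
    exact act_smul_eb i₀ _
  have hreg : Reg1 ∞ 0 (fun y k => g y k • (eb i₀ : EuclideanSpace ℂ ι)) := by
    rw [reg1_iff_at]
    intro x
    have := (hg.at x).clm (toE i₀)
    simpa using this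
  have hA0 : ∀ x, n1 D.h 0 g x ≤ |A| * Real.exp (δ * D.f x) := fun x =>
    (hA x).trans (mul_le_mul_of_nonneg_right (le_abs_self _) (Real.exp_pos _).le)
  have hbd : ∃ A, ∀ j, D.p1 0 (fun y k => g y k • (eb i₀ : EuclideanSpace ℂ ι)) j ≤ A * ew δ j := by
    refine ⟨_, prof_le_ew D (abs_nonneg A) fun x => ?_⟩
    rw [n1_smul_eb]
    exact hA0 x
  have hd : ∀ x, (LB.triv i₀ : LB M ι).db1 (fun _ _ => 0) 0
      (fun y k => g y k • (eb i₀ : EuclideanSpace ℂ ι)) x = 0 := by
    intro x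
    have := dbar1_clm (toE i₀) ((hg.at x).of_le (m := 1) (one_le_infty))
    simp only [toE_apply] at this
    rw [LB.db1, this, hcl x]
    simp only [zero_smul, sub_zero, add_zero]
    ext k
    simp [LB.act]
  obtain ⟨c, hc, u, hu, husec, ⟨A', hA'⟩, hdu⟩ := h (fun _ => fun y k => g y k • eb i₀)
    (fun _ => ⟨hreg, hsec, hbd, hd⟩)
  have hc0 : c 0 ≠ 0 := by
    intro h0
    apply hc
    funext k
    have hk : k = 0 := Fin.ext (by omega)
    rw [hk, h0]
    rfl
  have hcont : Continuous (n0 D.h 0 u) := continuous_n0 D.herm hu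
  have hule := le_of_prof_ew D hcont hA'
  refine ⟨fun x => (c 0)⁻¹ • u x i₀, ?_, ⟨‖(c 0)⁻¹‖ * (|A'| * Real.exp |δ|), fun x => ?_⟩, ?_⟩
  · rw [reg0_iff_at]
    intro x
    exact ((hu.at x).clm (pr i₀)).const_smul _
  · rw [norm_smul, mul_assoc]
    refine mul_le_mul_of_nonneg_left ?_ (norm_nonneg _)
    refine (norm_apply_le _ _).trans ?_
    have := hule x
    rwa [n0_zero_exp] at this
  · intro x i
    have hu1 := (hu.at x).of_le (m := 1) (one_le_infty)
    have h1 := dbar0_const_smul (c 0)⁻¹ (hu1.clm (pr i₀)) i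
    have h2 := dbar0_clm (pr i₀) hu1 i
    have h3 := hdu x i
    simp only [pr_apply] at h1 h2
    rw [h1, h2]
    have h4 : (LB.triv i₀ : LB M ι).db0 (fun _ _ => 0) 0 u x i = (dbar0 0 u x i) i₀ • eb i₀ := by
      rw [LB.db0]
      simp only [LB.triv, act_single, zero_smul, add_zero]
    rw [h4] at h3
    have h5 := congrArg (fun v : EuclideanSpace ℂ ι => v i₀) h3
    have h6 : (∑ j : Fin (0 + 1), c j • g x i • (eb i₀ : EuclideanSpace ℂ ι)) =
        c 0 • g x i • eb i₀ := Fin.sum_univ_one _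
    simp only [h6, PiLp.smul_apply, smul_eq_mul, eb_apply, mul_one] at h5
    rw [h5, smul_eq_mul, ← mul_assoc, inv_mul_cancel₀ hc0, one_mul]

/-! ### limits at the inner end -/

/-- a smooth function `u` with growth at most `e^{d'|f|}` and `∂̄u = O(e^{ε f})` at the inner end
has a limit there, with rate `e^{ε f}` -/
theorem lim_in {d' ε : ℝ} (hroot : D.RootGap d') (hε : 0 < ε) (hεd : ε ≤ d') (hT : T1s D ε)
    {u : M → ℂ} (hu : Reg0 ∞ 0 u) {C : ℝ}
    (hgr : ∀ x, D.f x ≤ 0 → ‖u x‖ ≤ C * Real.exp (-(d' * D.f x))) {C' : ℝ}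
    (hdb : ∀ x, D.f x ≤ 0 → n1 D.h 0 (dbar0 0 u) x ≤ C' * Real.exp (ε * D.f x)) :
    ∃ b : ℂ, ∃ A : ℝ, ∀ x, D.f x ≤ 0 → ‖u x - b‖ ≤ A * Real.exp (ε * D.f x) := by
  set w : M → ℂ := fun x => cutI D 1 x * u x with hw
  have hwreg : Reg0 ∞ 0 w := by
    rw [reg0_iff_at]
    intro x
    exact ((reg_cutI D 1).at x).mul (hu.at x)
  have hwin : ∀ x, D.f x ≤ 1 → w x = u x := fun x hx => by
    rw [hw]; simp only; rw [cutI_eq_one D hx, one_mul]
  have hwout : ∀ x, 2 ≤ D.f x → w x = 0 := fun x hx => by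
    rw [hw]; simp only; rw [cutI_eq_zero D (by linarith), zero_mul]
  have hgreg : Reg1 ∞ 0 (dbar0 0 w) := hwreg.dbar infty_add_one_le
  have hgcl : ∀ x, dbar1 0 (dbar0 0 w) x = 0 := fun x =>
    dbar1_dbar0 ((hwreg.at x).of_le two_le_infty)
  have hgcont : Continuous (n1 D.h 0 (dbar0 0 w)) := continuous_n1 D.herm hgreg
  obtain ⟨C₁, hC₁, hC₁'⟩ := bdd_on D hgcont 0 3
  have hg0 : ∀ x, n1 D.h 0 (dbar0 0 w) x ≤ (|C'| + C₁) * Real.exp (ε * D.f x) := by
    intro x
    rcases le_total (D.f x) 0 with hx | hx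
    · have h1 : dbar0 0 w x = dbar0 0 u x := by
        apply dbar0_congr
        filter_upwards [lt_nhds D (show D.f x < 1 by linarith)] with y hy
        exact hwin y hy.le
      have h2 : n1 D.h 0 (dbar0 0 w) x = n1 D.h 0 (dbar0 0 u) x := by
        simp only [n1, nsq1, h1]
      rw [h2]
      refine (hdb x hx).trans (mul_le_mul_of_nonneg_right ?_ (Real.exp_pos _).le)
      linarith [le_abs_self C']
    · have he : 1 ≤ Real.exp (ε * D.f x) := Real.one_le_exp (by positivity)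
      rcases le_total (D.f x) 3 with hx3 | hx3
      · refine (hC₁' x hx hx3).trans ?_
        nlinarith [abs_nonneg C']
      · have h1 : dbar0 0 w x = 0 := by
          have : dbar0 0 w x = dbar0 0 (fun _ => (0 : ℂ)) x := by
            apply dbar0_congr
            filter_upwards [gt_nhds D (show 2 < D.f x by linarith)] with y hy
            exact hwout y hy.le
          rw [this, dbar0_zero]
        have h2 : n1 D.h 0 (dbar0 0 w) x = 0 := by
          simp [n1, nsq1, h1]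
        rw [h2]
        positivity
  obtain ⟨v, hv, ⟨A, hA⟩, hdv⟩ := hT (dbar0 0 w) hgreg ⟨_, hg0⟩ hgcl
  have hdiff : Reg0 ∞ 0 (fun x => w x - v x) := by
    rw [reg0_iff_at]
    intro x
    exact (hwreg.at x).sub (hv.at x)
  have hhol : ∀ x i, dbar0 0 (fun x => w x - v x) x i = 0 := by
    intro x i
    rw [dbar0_sub ((hwreg.at x).of_le one_le_infty)
      ((hv.at x).of_le one_le_infty)]
    simp [hdv x i]
  have hwcont : Continuous (fun x => ‖w x‖) := hwreg.continuous.norm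
  obtain ⟨C₂, hC₂, hC₂'⟩ := bdd_on D hwcont 0 3
  have hgrow : ∃ A, ∀ x, ‖w x - v x‖ ≤ A * Real.exp (d' * |D.f x|) := by
    refine ⟨|C| + C₂ + |A|, fun x => ?_⟩
    have he1 : 1 ≤ Real.exp (d' * |D.f x|) :=
      Real.one_le_exp (mul_nonneg hroot.pos.le (abs_nonneg _))
    have hv' : ‖v x‖ ≤ |A| * Real.exp (d' * |D.f x|) := by
      refine (hA x).trans (mul_le_mul (le_abs_self _) (Real.exp_le_exp.2 ?_) (Real.exp_pos _).le
        (abs_nonneg _))
      exact (mul_le_mul_of_nonneg_left (le_abs_self _) hε.le).trans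
        (mul_le_mul_of_nonneg_right hεd (abs_nonneg _))
    have hw' : ‖w x‖ ≤ (|C| + C₂) * Real.exp (d' * |D.f x|) := by
      rcases le_total (D.f x) 0 with hx | hx
      · rw [hwin x (by linarith)]
        refine (hgr x hx).trans ?_
        rw [abs_of_nonpos hx]
        have : d' * -D.f x = -(d' * D.f x) := by ring
        rw [this]
        refine mul_le_mul_of_nonneg_right ?_ (Real.exp_pos _).le
        linarith [le_abs_self C]
      · rcases le_total (D.f x) 3 with hx3 | hx3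
        · refine (hC₂' x hx hx3).trans ?_
          nlinarith [abs_nonneg C]
        · rw [hwout x (by linarith), norm_zero]
          positivity
    calc ‖w x - v x‖ ≤ ‖w x‖ + ‖v x‖ := norm_sub_le _ _
      _ ≤ (|C| + C₂) * Real.exp (d' * |D.f x|) + |A| * Real.exp (d' * |D.f x|) :=
          add_le_add hw' hv'
      _ = _ := by ring
  obtain ⟨b, hb⟩ := hroot.const _ hdiff hhol hgrow
  refine ⟨b, A, fun x hx => ?_⟩
  have h1 : u x - b = v x := by
    have := hb x
    rw [hwin x (by linarith)] at this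
    rw [← this]; ring
  rw [h1]
  exact hA x

end Vale.Agent.P267.H706
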