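import Vale.Agent.P267.H706.Lim

/-!
# P267 / XA-FIN (helper706), part 2: the holomorphic section `α` of `E_e`

`α = χ(f) e_{i₀} - correction`, the correction has weight `-d`; limit `e_{i₀}` at the outer end,
limit `b e_{i₀}` at the inner end.
-/

set_option linter.unusedSectionVars false
set_option linter.unusedVariables false

open scoped Manifold ContDiff ComplexConjugate Matrix Topology
open MeasureTheory Set Filter

noncomputable section

namespace Vale.Agent.P267.H706

open Vale.Agent.P267.FL Vale.Agent.P267.XT Vale.Agent.P267.H692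

variable {M : Type} [TopologicalSpace M] [ChartedSpace C2 M]
variable {ι : Type} [Fintype ι] [DecidableEq ι]

/-! ### linear algebra of `act` and `db0` -/

theorem act_add (P : Matrix ι ι ℂ) (v w : EuclideanSpace ℂ ι) :
    LB.act P (v + w) = LB.act P v + LB.act P w := by
  ext i
  simp [LB.act, Matrix.mulVec_add]

theorem act_smul (P : Matrix ι ι ℂ) (c : ℂ) (v : EuclideanSpace ℂ ι) :
    LB.act P (c • v) = c • LB.act P v := by
  ext i
  simp [LB.act, Matrix.mulVec_smul]

theorem act_sub (P : Matrix ι ι ℂ) (v w : EuclideanSpace ℂ ι) :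
    LB.act P (v - w) = LB.act P v - LB.act P w := by
  ext i
  simp [LB.act, Matrix.mulVec_sub]

theorem act_zero (P : Matrix ι ι ℂ) : LB.act P (0 : EuclideanSpace ℂ ι) = 0 := by
  ext i
  simp [LB.act]

variable [IsManifold 𝓘(ℂ, C2) ω M]

theorem db0_sub {L : LB M ι} {a : M → Fin 2 → ℂ} {κ : ℤ} {s t : M → EuclideanSpace ℂ ι}
    (hs : Reg0 ∞ κ s) (ht : Reg0 ∞ κ t) (x : M) (i : Fin 2) :
    L.db0 a κ (fun y => s y - t y) x i = L.db0 a κ s x i - L.db0 a κ t x i := by
  rw [LB.db0, LB.db0, LB.db0, dbar0_sub ((hs.at x).of_le one_le_infty)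
    ((ht.at x).of_le one_le_infty), Pi.sub_apply, act_sub, smul_sub]
  abel

theorem db0_add {L : LB M ι} {a : M → Fin 2 → ℂ} {κ : ℤ} {s t : M → EuclideanSpace ℂ ι}
    (hs : Reg0 ∞ κ s) (ht : Reg0 ∞ κ t) (x : M) (i : Fin 2) :
    L.db0 a κ (fun y => s y + t y) x i = L.db0 a κ s x i + L.db0 a κ t x i := by
  rw [LB.db0, LB.db0, LB.db0, dbar0_add ((hs.at x).of_le one_le_infty)
    ((ht.at x).of_le one_le_infty), Pi.add_apply, act_add, smul_add]
  abel

theorem db0_const_smul {L : LB M ι} {a : M → Fin 2 → ℂ} {κ : ℤ} (c : ℂ)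
    {s : M → EuclideanSpace ℂ ι} (hs : Reg0 ∞ κ s) (x : M) (i : Fin 2) :
    L.db0 a κ (fun y => c • s y) x i = c • L.db0 a κ s x i := by
  rw [LB.db0, LB.db0, dbar0_const_smul c ((hs.at x).of_le one_le_infty), act_smul, smul_add,
    smul_comm (a x i) c]

theorem sec_sub {L : LB M ι} {s t : M → EuclideanSpace ℂ ι} (hs : L.Sec s) (ht : L.Sec t) :
    L.Sec (fun y => s y - t y) := fun x => by rw [act_sub, hs x, ht x]

theorem sec_smul {L : LB M ι} {s : M → EuclideanSpace ℂ ι} (hs : L.Sec s) (c : M → ℂ) :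
    L.Sec (fun y => c y • s y) := fun x => by rw [act_smul, hs x]

variable (D : XTData M)

/-! ### the form `∂̄(χ e_{i₀})` -/

section base

variable {L : LB M ι} {i₀ : ι} {a : M → Fin 2 → ℂ} {R N : ℝ}

/-- the scalar `(0,1)`-form `∂̄c + c a` -/
def hform (c : M → ℂ) (a : M → Fin 2 → ℂ) (x : M) (i : Fin 2) : ℂ := dbar0 0 c x i + a x i * c x

theorem reg_hform {c : M → ℂ} (hc : Reg0 ∞ 0 c) (ha : Reg1 ∞ 0 a) : Reg1 ∞ 0 (hform c a) := by
  rw [reg1_iff_at]
  intro x
  have h1 := ((hc.dbar infty_add_one_le).at x)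
  have h2 := (ha.at x).smul_right (hc.at x)
  exact h1.add h2

/-- `P` is constant where `f > R` -/
theorem F02_eq_zero (hE : D.EndTriv L i₀ a R N) {x : M} (hx : R < D.f x) : L.F02 x = 0 := by
  have h : ∀ i j, dbar0 0 (fun y => L.P y i j) x = 0 := by
    intro i j
    have h1 : dbar0 0 (fun y => L.P y i j) x =
        dbar0 0 (fun _ : M => (Matrix.single i₀ i₀ (1 : ℂ)) i j) x := by
      apply dbar0_congr
      filter_upwards [gt_nhds D hx] with y hy
      rw [hE.ends y (hy.le.trans (le_abs_self _))]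
    rw [h1, dbar0_const]
  have h2 : ∀ k : Fin 2, (Matrix.of fun i j => dbar0 0 (fun y => L.P y i j) x k) = 0 := by
    intro k
    ext i j
    simp [h i j]
  rw [LB.F02, h2, h2]
  simp

theorem sec_cutO (hE : D.EndTriv L i₀ a R N) {s : ℝ} (hs : R ≤ s) :
    L.Sec (fun x => cutO D s x • eb i₀) := by
  intro x
  show LB.act (L.P x) (cutO D s x • eb i₀) = cutO D s x • eb i₀
  rcases le_total (D.f x) s with h | h
  · rw [cutO_eq_zero D h, zero_smul, act_zero]
  · rw [hE.ends x ((hs.trans h).trans (le_abs_self _))]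
    exact act_smul_eb i₀ _

theorem reg_cutO_smul (s : ℝ) : Reg0 ∞ 0 (fun x => cutO D s x • (eb i₀ : EuclideanSpace ℂ ι)) := by
  rw [reg0_iff_at]
  intro x
  have := ((reg_cutO D s).at x).clm (toE i₀)
  simpa using this

/-- `∂̄_L (χ e_{i₀}) = (∂̄χ + χ a) e_{i₀}` -/
theorem db0_cutO (hE : D.EndTriv L i₀ a R N) {s : ℝ} (hs : R < s) (x : M) (i : Fin 2) :
    L.db0 a 0 (fun y => cutO D s y • eb i₀) x i = hform (cutO D s) a x i • eb i₀ := by
  have h1 : dbar0 0 (fun y => cutO D s y • (eb i₀ : EuclideanSpace ℂ ι)) x i =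
      dbar0 0 (cutO D s) x i • eb i₀ := by
    have := dbar0_clm (toE i₀) (((reg_cutO D s).at x).of_le one_le_infty) i
    simpa using this
  rw [LB.db0, h1, hform, add_smul, mul_smul]
  congr 1
  rcases lt_or_ge (D.f x) s with h | h
  · have h2 : dbar0 0 (cutO D s) x = 0 := by
      have : dbar0 0 (cutO D s) x = dbar0 0 (fun _ => (0 : ℂ)) x := by
        apply dbar0_congr
        filter_upwards [lt_nhds D h] with y hy
        exact cutO_eq_zero D hy.le
      rw [this, dbar0_zero]
    rw [h2, Pi.zero_apply, zero_smul, act_zero]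
  · rw [hE.ends x ((hs.le.trans h).trans (le_abs_self _))]
    exact act_smul_eb i₀ _

theorem sec1_hform (hE : D.EndTriv L i₀ a R N) {s : ℝ} (hs : R < s) :
    L.Sec1 (fun x i => hform (cutO D s) a x i • eb i₀) := by
  intro x i
  show LB.act (L.P x) (hform (cutO D s) a x i • eb i₀) = hform (cutO D s) a x i • eb i₀
  rcases lt_or_ge (D.f x) s with h | h
  · have h2 : dbar0 0 (cutO D s) x = 0 := by
      have : dbar0 0 (cutO D s) x = dbar0 0 (fun _ => (0 : ℂ)) x := by
        apply dbar0_congr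
        filter_upwards [lt_nhds D h] with y hy
        exact cutO_eq_zero D hy.le
      rw [this, dbar0_zero]
    rw [hform, h2, cutO_eq_zero D h.le, Pi.zero_apply, mul_zero, add_zero, zero_smul, act_zero]
  · rw [hE.ends x ((hs.le.trans h).trans (le_abs_self _))]
    exact act_smul_eb i₀ _

theorem db1_hform (hE : D.EndTriv L i₀ a R N) {s : ℝ} (hs : R < s) (x : M) :
    L.db1 a 0 (fun x i => hform (cutO D s) a x i • eb i₀) x = 0 := by
  set c := cutO D s with hc
  have hcreg : Reg0 ∞ 0 c := reg_cutO D s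
  have hareg : Reg1 ∞ 0 a := hE.hol.smooth
  have hreg := reg_hform hcreg hareg
  have h1 : dbar1 0 (fun y i => hform c a y i • (eb i₀ : EuclideanSpace ℂ ι)) x =
      dbar1 0 (hform c a) x • eb i₀ := by
    have := dbar1_clm (toE i₀) ((hreg.at x).of_le one_le_infty)
    simpa using this
  have h2 : dbar1 0 (hform c a) x =
      dbar1 0 a x * c x - (a x 0 * dbar0 0 c x 1 - a x 1 * dbar0 0 c x 0) := by
    have h3 : dbar1 0 (fun y => dbar0 0 c y + fun i => a y i • c y) x =
        dbar1 0 (dbar0 0 c) x + dbar1 0 (fun y i => a y i • c y) x :=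
      dbar1_add (((hcreg.dbar infty_add_one_le).at x).of_le one_le_infty)
        (((hareg.at x).smul_right (hcreg.at x)).of_le one_le_infty)
    have h4 := dbar1_dbar0 ((hcreg.at x).of_le two_le_infty)
    have h5 := dbar1_smul_right ((hareg.at x).of_le one_le_infty) ((hcreg.at x).of_le one_le_infty)
    have h6 : hform c a = fun y => dbar0 0 c y + fun i => a y i • c y := by
      funext y i
      rfl
    rw [h6, h3, h4, zero_add, h5]
    simp only [smul_eq_mul]
  have h7 : dbar1 0 a x * c x = 0 := by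
    rcases le_or_gt (D.f x) s with h | h
    · rw [hc, cutO_eq_zero D h, mul_zero]
    · have := hE.hol.integrable x
      rw [F02_eq_zero D hE (hs.trans h), add_zero] at this
      rw [this, zero_mul]
  rcases lt_or_ge (D.f x) s with h | h
  · have h8 : dbar0 0 c x = 0 := by
      have : dbar0 0 c x = dbar0 0 (fun _ => (0 : ℂ)) x := by
        apply dbar0_congr
        filter_upwards [lt_nhds D h] with y hy
        exact cutO_eq_zero D hy.le
      rw [this, dbar0_zero]
    have h9 : ∀ i, hform c a x i = 0 := by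
      intro i
      rw [hform, h8, hc, cutO_eq_zero D h.le]
      simp
    rw [LB.db1, h1, h2, h7, h8]
    simp [h9, act_zero]
  · have h10 : L.P x = Matrix.single i₀ i₀ 1 := hE.ends x ((hs.le.trans h).trans (le_abs_self _))
    rw [LB.db1, h1, h2, h7, h10, act_smul_eb, smul_smul, smul_smul, ← sub_smul, ← add_smul]
    have : 0 - (a x 0 * dbar0 0 c x 1 - a x 1 * dbar0 0 c x 0) +
        (a x 0 * hform c a x 1 - a x 1 * hform c a x 0) = 0 := by
      simp only [hform]
      ring
    rw [this, zero_smul]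

end base

/-! ### existence of `α` -/

variable {L : LB M ι} {i₀ : ι} {a : M → Fin 2 → ℂ} {R N d d' : ℝ}

theorem exists_alpha (hd : 0 < d) (hdd : d < d') (hN : d + d' ≤ N) (hE : D.EndTriv L i₀ a R N)
    (hroot : D.RootGap d') (hT : D.T1 L a (-d) 0) (hTs : T1s D d') :
    ∃ (α : M → EuclideanSpace ℂ ι) (b : ℂ) (R₀ A : ℝ), 0 < R₀ ∧ R ≤ R₀ ∧ 0 ≤ A ∧
      Reg0 ∞ 0 α ∧ L.Sec α ∧ (∀ x i, L.db0 a 0 α x i = 0) ∧
      (∀ x, R₀ ≤ D.f x → ‖α x - eb i₀‖ ≤ A * Real.exp (-d * D.f x)) ∧
      (∀ x, 0 ≤ D.f x → ‖α x‖ ≤ A) ∧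
      (∀ x, D.f x ≤ 0 → ‖α x i₀ - b‖ ≤ A * Real.exp (d' * D.f x)) := by
  set s : ℝ := |R| + 1 with hs
  have hRs : R < s := by rw [hs]; linarith [le_abs_self R]
  have hs1 : 1 ≤ s := by rw [hs]; linarith [abs_nonneg R]
  have hNpos : 0 < N := by linarith
  set c := cutO D s with hc
  have hcreg : Reg0 ∞ 0 c := reg_cutO D s
  have hareg : Reg1 ∞ 0 a := hE.hol.smooth
  have hreg := reg_hform hcreg hareg
  have hreg' : Reg1 ∞ 0 (fun y i => hform c a y i • (eb i₀ : EuclideanSpace ℂ ι)) := by
    rw [reg1_iff_at]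
    intro x
    have := (hreg.at x).clm (toE i₀)
    simpa using this
  have hcont : Continuous (n1 D.h 0 (hform c a)) := continuous_n1 D.herm hreg
  obtain ⟨C₀, hC₀⟩ := hE.decay
  obtain ⟨C₁, hC₁, hC₁'⟩ := bdd_on D hcont (-1) (s + 2)
  -- bound of the form
  have hbd : ∀ x, n1 D.h 0 (hform c a) x ≤
      (|C₀| + C₁ * Real.exp (d * (s + 2))) * Real.exp (-d * D.f x) := by
    intro x
    have he : 0 < Real.exp (-d * D.f x) := Real.exp_pos _
    rcases lt_or_ge (D.f x) s with h | h
    · have h9 : ∀ i, hform c a x i = 0 := by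
        intro i
        have h8 : dbar0 0 c x = 0 := by
          have : dbar0 0 c x = dbar0 0 (fun _ => (0 : ℂ)) x := by
            apply dbar0_congr
            filter_upwards [lt_nhds D h] with y hy
            exact cutO_eq_zero D hy.le
          rw [this, dbar0_zero]
        rw [hform, h8, hc, cutO_eq_zero D h.le]
        simp
      have : n1 D.h 0 (hform c a) x = 0 := by simp [n1, nsq1, h9]
      rw [this]
      positivity
    · rcases le_total (D.f x) (s + 2) with h2 | h2
      · refine (hC₁' x (by linarith) h2).trans ?_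
        have : 1 ≤ Real.exp (d * (s + 2)) * Real.exp (-d * D.f x) := by
          rw [← Real.exp_add]
          apply Real.one_le_exp
          nlinarith
        have h3 : C₁ ≤ C₁ * (Real.exp (d * (s + 2)) * Real.exp (-d * D.f x)) := by
          nlinarith
        have h4 : 0 ≤ |C₀| * Real.exp (-d * D.f x) := by positivity
        calc C₁ ≤ C₁ * (Real.exp (d * (s + 2)) * Real.exp (-d * D.f x)) := h3
          _ ≤ |C₀| * Real.exp (-d * D.f x) +
              C₁ * (Real.exp (d * (s + 2)) * Real.exp (-d * D.f x)) := by linarith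
          _ = _ := by ring
      · have h5 : hform c a x = a x := by
          have h8 : dbar0 0 c x = 0 := by
            have : dbar0 0 c x = dbar0 0 (fun _ => (1 : ℂ)) x := by
              apply dbar0_congr
              filter_upwards [gt_nhds D (show s + 1 < D.f x by linarith)] with y hy
              exact cutO_eq_one D hy.le
            rw [this, dbar0_const]
          funext i
          rw [hform, h8, hc, cutO_eq_one D (by linarith)]
          simp
        have h6 : n1 D.h 0 (hform c a) x = n1 D.h 0 a x := by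
          simp only [n1, nsq1, h5]
        rw [h6]
        refine (hC₀ x).trans ?_
        have h7 : Real.exp (-(N * |D.f x|)) ≤ Real.exp (-d * D.f x) := by
          apply Real.exp_le_exp.2
          rw [abs_of_nonneg (by linarith)]
          nlinarith
        calc C₀ * Real.exp (-(N * |D.f x|)) ≤ |C₀| * Real.exp (-d * D.f x) :=
              mul_le_mul (le_abs_self _) h7 (Real.exp_pos _).le (abs_nonneg _)
          _ ≤ _ := by
              refine mul_le_mul_of_nonneg_right ?_ he.le
              have : 0 ≤ C₁ * Real.exp (d * (s + 2)) := by positivity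
              linarith
  have hbd' : ∃ A, ∀ j, D.p1 0 (fun y k => hform c a y k • (eb i₀ : EuclideanSpace ℂ ι)) j ≤
      A * ew (-d) j := by
    refine ⟨_, prof_le_ew D (A := |C₀| + C₁ * Real.exp (d * (s + 2))) (by positivity) fun x => ?_⟩
    rw [n1_smul_eb]
    exact hbd x
  obtain ⟨c', hc', u, hu, husec, ⟨A', hA'⟩, hdu⟩ :=
    hT (fun _ => fun y k => hform c a y k • eb i₀)
      (fun _ => ⟨hreg', sec1_hform D hE hRs, hbd', db1_hform D hE hRs⟩)
  have hc0 : c' 0 ≠ 0 := by
    intro h0
    apply hc'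
    funext k
    have hk : k = 0 := Fin.ext (by omega)
    rw [hk, h0]
    rfl
  have hucont : Continuous (n0 D.h 0 u) := continuous_n0 D.herm hu
  have hule : ∀ x, ‖u x‖ ≤ |A'| * Real.exp |(-d)| * Real.exp (-d * D.f x) := fun x => by
    have := le_of_prof_ew D hucont hA' x
    rwa [n0_zero_exp] at this
  set k : ℂ := (c' 0)⁻¹ with hk
  set A₁ : ℝ := ‖k‖ * (|A'| * Real.exp |(-d)|) with hA₁
  have hA₁0 : 0 ≤ A₁ := by positivity
  have hcu : Reg0 ∞ 0 (fun y => k • u y) := by
    rw [reg0_iff_at]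
    exact fun x => (hu.at x).const_smul _
  have hs0 : Reg0 ∞ 0 (fun x => c x • (eb i₀ : EuclideanSpace ℂ ι)) := reg_cutO_smul D s
  set α : M → EuclideanSpace ℂ ι := fun x => c x • eb i₀ - k • u x with hα
  have hαreg : Reg0 ∞ 0 α := by
    rw [reg0_iff_at]
    exact fun x => (hs0.at x).sub (hcu.at x)
  have hαsec : L.Sec α := sec_sub (sec_cutO D hE hRs.le) (sec_smul husec fun _ => k)
  have hαhol : ∀ x i, L.db0 a 0 α x i = 0 := by
    intro x i
    have h1 := db0_sub (L := L) (a := a) hs0 hcu x i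
    rw [hα, h1, db0_cutO D hE hRs, db0_const_smul k hu, hdu x i]
    have h6 : (∑ j : Fin (0 + 1), c' j • hform c a x i • (eb i₀ : EuclideanSpace ℂ ι)) =
        c' 0 • hform c a x i • eb i₀ := Fin.sum_univ_one _
    rw [h6, hk, smul_smul (c' 0)⁻¹, inv_mul_cancel₀ hc0, one_smul, sub_self]
  have hαu : ∀ x, ‖α x - c x • eb i₀‖ ≤ A₁ * Real.exp (-d * D.f x) := by
    intro x
    have : α x - c x • eb i₀ = -(k • u x) := by rw [hα]; simp
    rw [this, norm_neg, norm_smul, hA₁, mul_assoc]
    exact mul_le_mul_of_nonneg_left (hule x) (norm_nonneg _)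
  have hcs : ∀ x, ‖c x • (eb i₀ : EuclideanSpace ℂ ι)‖ ≤ 1 := by
    intro x
    rw [norm_smul, norm_eb, mul_one]
    exact norm_cutO_le D s x
  have hαn : ∀ x, ‖α x‖ ≤ 1 + A₁ * Real.exp (-d * D.f x) := by
    intro x
    have : α x = c x • eb i₀ + (α x - c x • eb i₀) := by abel
    rw [this]
    exact (norm_add_le _ _).trans (add_le_add (hcs x) (hαu x))
  -- inner limit
  have hscal : Reg0 ∞ 0 (fun x => α x i₀) := by
    rw [reg0_iff_at]
    exact fun x => (hαreg.at x).clm (pr i₀)
  have hgr : ∀ x, D.f x ≤ 0 → ‖α x i₀‖ ≤ (1 + A₁) * Real.exp (-(d' * D.f x)) := by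
    intro x hx
    refine (norm_apply_le _ _).trans ((hαn x).trans ?_)
    have h1 : 1 ≤ Real.exp (-(d' * D.f x)) := Real.one_le_exp (by nlinarith)
    have h2 : Real.exp (-d * D.f x) ≤ Real.exp (-(d' * D.f x)) :=
      Real.exp_le_exp.2 (by nlinarith)
    calc 1 + A₁ * Real.exp (-d * D.f x) ≤
          Real.exp (-(d' * D.f x)) + A₁ * Real.exp (-(d' * D.f x)) :=
          add_le_add h1 (mul_le_mul_of_nonneg_left h2 hA₁0)
      _ = _ := by ring
  have hdreg : Reg1 ∞ 0 (dbar0 0 (fun x => α x i₀)) := hscal.dbar infty_add_one_le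
  have hdcont : Continuous (n1 D.h 0 (dbar0 0 (fun x => α x i₀))) := continuous_n1 D.herm hdreg
  obtain ⟨C₂, hC₂, hC₂'⟩ := bdd_on D hdcont (-s) 0
  have hdb : ∀ x, D.f x ≤ 0 → n1 D.h 0 (dbar0 0 (fun x => α x i₀)) x ≤
      ((|C₀| * (1 + A₁)) + C₂ * Real.exp (d' * s)) * Real.exp (d' * D.f x) := by
    intro x hx
    have he : 0 < Real.exp (d' * D.f x) := Real.exp_pos _
    rcases le_total (D.f x) (-s) with h | h
    · -- `∂̄α₀ = -a α₀`
      have hP : L.P x = Matrix.single i₀ i₀ 1 := by
        apply hE.ends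
        rw [abs_of_nonpos hx]
        linarith
      have h1 : ∀ i, dbar0 0 (fun x => α x i₀) x i = (-(α x i₀)) * a x i := by
        intro i
        have h2 := dbar0_clm (pr i₀) ((hαreg.at x).of_le one_le_infty) i
        simp only [pr_apply] at h2
        have h3 := hαhol x i
        rw [LB.db0, hP, act_single] at h3
        have h4 := congrArg (fun v : EuclideanSpace ℂ ι => v i₀) h3
        simp only [PiLp.add_apply, PiLp.smul_apply, smul_eq_mul, eb_apply, mul_one,
          PiLp.zero_apply] at h4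
        rw [h2]
        linear_combination h4
      have h5 : n1 D.h 0 (dbar0 0 (fun x => α x i₀)) x = ‖α x i₀‖ * n1 D.h 0 a x := by
        have h6 := n1_smul (h := D.h) 0 (fun y => -(α y i₀)) a x
        rw [norm_neg] at h6
        rw [← h6]
        have h7 : dbar0 0 (fun x => α x i₀) x = (fun y => (-(α y i₀)) • a y) x := by
          funext i
          rw [h1 i]
          rfl
        simp only [n1, nsq1]
        rw [h7]
      rw [h5]
      have h8 : ‖α x i₀‖ ≤ (1 + A₁) * Real.exp (-d * D.f x) := by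
        refine (norm_apply_le _ _).trans ((hαn x).trans ?_)
        have : 1 ≤ Real.exp (-d * D.f x) := Real.one_le_exp (by nlinarith)
        nlinarith
      have h9 : n1 D.h 0 a x ≤ |C₀| * Real.exp (N * D.f x) := by
        refine (hC₀ x).trans ?_
        rw [abs_of_nonpos hx]
        have : -(N * -D.f x) = N * D.f x := by ring
        rw [this]
        exact mul_le_mul_of_nonneg_right (le_abs_self _) (Real.exp_pos _).le
      calc ‖α x i₀‖ * n1 D.h 0 a x ≤
            ((1 + A₁) * Real.exp (-d * D.f x)) * (|C₀| * Real.exp (N * D.f x)) :=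
            mul_le_mul h8 h9 (n1_nonneg D.herm _ _ _) (by positivity)
        _ = (|C₀| * (1 + A₁)) * (Real.exp (-d * D.f x) * Real.exp (N * D.f x)) := by ring
        _ ≤ (|C₀| * (1 + A₁)) * Real.exp (d' * D.f x) := by
            refine mul_le_mul_of_nonneg_left ?_ (by positivity)
            rw [← Real.exp_add]
            apply Real.exp_le_exp.2
            nlinarith
        _ ≤ _ := by
            refine mul_le_mul_of_nonneg_right ?_ he.le
            have : 0 ≤ C₂ * Real.exp (d' * s) := by positivity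
            linarith
    · refine (hC₂' x h hx).trans ?_
      have : 1 ≤ Real.exp (d' * s) * Real.exp (d' * D.f x) := by
        rw [← Real.exp_add]
        apply Real.one_le_exp
        nlinarith
      have h3 : C₂ ≤ C₂ * (Real.exp (d' * s) * Real.exp (d' * D.f x)) := by nlinarith
      have h4 : 0 ≤ |C₀| * (1 + A₁) * Real.exp (d' * D.f x) := by positivity
      calc C₂ ≤ C₂ * (Real.exp (d' * s) * Real.exp (d' * D.f x)) := h3
        _ ≤ |C₀| * (1 + A₁) * Real.exp (d' * D.f x) +
            C₂ * (Real.exp (d' * s) * Real.exp (d' * D.f x)) := by linarith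
        _ = _ := by ring
  obtain ⟨b, A₂, hA₂⟩ := lim_in D hroot hroot.pos le_rfl hTs hscal hgr hdb
  refine ⟨α, b, s + 1, 1 + A₁ + |A₂|, by linarith, by linarith, by positivity, hαreg, hαsec,
    hαhol, ?_, ?_, ?_⟩
  · intro x hx
    have h1 := hαu x
    rw [hc, cutO_eq_one D hx, one_smul] at h1
    refine h1.trans (mul_le_mul_of_nonneg_right ?_ (Real.exp_pos _).le)
    linarith [abs_nonneg A₂]
  · intro x hx
    refine (hαn x).trans ?_
    have : Real.exp (-d * D.f x) ≤ 1 := Real.exp_le_one_iff.2 (by nlinarith)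
    nlinarith [abs_nonneg A₂]
  · intro x hx
    refine (hA₂ x hx).trans (mul_le_mul_of_nonneg_right ?_ (Real.exp_pos _).le)
    linarith [le_abs_self A₂]

end Vale.Agent.P267.H706
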