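import Vale.Agent.P267.H706.Alpha
import Vale.Agent.P267.H378.NF

/-!
# P267 / XA-FIN (helper706), part 3: `xtCone_of`

From the interface propositions of `H877/Iface.lean` to `H692.XtCone`.
-/

set_option linter.unusedSectionVars false
set_option linter.unusedVariables false

open scoped Manifold ContDiff ComplexConjugate Matrix Topology
open MeasureTheory Set Filter

noncomputable section

namespace Vale.Agent.P267.H706

open Vale.Agent.P267.FL Vale.Agent.P267.XT Vale.Agent.P267.H692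

variable {M : Type} [TopologicalSpace M] [ChartedSpace C2 M] [IsManifold 𝓘(ℂ, C2) ω M]
variable {ι : Type} [Fintype ι] [DecidableEq ι]

/-! ### the identity theorem -/

/-- a section is locally a multiple of a holomorphic frame, with a holomorphic coefficient -/
theorem exists_coef {L : LB M ι} {a : M → Fin 2 → ℂ} (hF : H378.HasFrames L a)
    {α : M → EuclideanSpace ℂ ι} (hα : Reg0 ∞ 0 α) (hs : L.Sec α)
    (hd : ∀ x i, L.db0 a 0 α x i = 0) (x : M) :
    ∃ (c : M → ℂ) (f : M → EuclideanSpace ℂ ι), HolAt 0 c x ∧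
      ∀ᶠ y in 𝓝 x, f y ≠ 0 ∧ α y = c y • f y := by
  obtain ⟨f, hf, hfs, hf0⟩ := hF x
  have hfx : f x ≠ 0 := hf0.self_of_nhds.1
  obtain ⟨i₁, hi₁⟩ : ∃ i, f x i ≠ 0 := by
    by_contra h
    push Not at h
    exact hfx (by ext i; exact h i)
  have hfi : Reg0 ∞ 0 (fun y => f y i₁) := by
    rw [reg0_iff_at]
    exact fun y => (hf.at y).clm (pr i₁)
  have hαi : Reg0 ∞ 0 (fun y => α y i₁) := by
    rw [reg0_iff_at]
    exact fun y => (hα.at y).clm (pr i₁)
  have hne : ∀ᶠ y in 𝓝 x, f y i₁ ≠ 0 := hfi.continuous.continuousAt.eventually_ne hi₁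
  set c : M → ℂ := fun y => α y i₁ * (f y i₁)⁻¹ with hc
  have hcf : ∀ᶠ y in 𝓝 x, α y = c y • f y := by
    filter_upwards [hne] with y hy
    have hfy : f y ≠ 0 := by
      intro h
      rw [h] at hy
      simp at hy
    have h1 := H378.rank_one (L.herm y) (L.idem y) (L.tr y) (hfs y) hfy (hs y)
    have h2 : α y i₁ = (inner ℂ (f y) (α y) / (‖f y‖ : ℂ) ^ 2) * f y i₁ := by
      have := congrArg (fun v : EuclideanSpace ℂ ι => v i₁) h1
      simpa using this
    have h3 : c y = inner ℂ (f y) (α y) / (‖f y‖ : ℂ) ^ 2 := by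
      rw [hc]
      simp only
      rw [h2]
      field_simp
    rw [h3]
    exact h1
  have hcat : ∀ y, f y i₁ ≠ 0 → At0 ∞ 0 c y := fun y hy =>
    (hαi.at y).mul ((hfi.at y).inv0 hy)
  have hdc : ∀ᶠ y in 𝓝 x, dbar0 0 c y = 0 := by
    filter_upwards [hne, hf0, eventually_eventually_nhds.2 hcf] with y hy hy0 hycf
    funext i
    have h1 : dbar0 0 α y i = dbar0 0 c y i • f y + c y • dbar0 0 f y i := by
      rw [dbar0_congr hycf]
      exact dbar0_smul ((hcat y hy).of_le one_le_infty) ((hf.at y).of_le one_le_infty) i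
    have h2 := hd y i
    have h3 := congrFun hy0.2 i
    rw [LB.db0] at h2 h3
    rw [h1, act_add, act_smul, act_smul, hfs y, hycf.self_of_nhds] at h2
    have h4 : dbar0 0 c y i • f y +
        c y • (LB.act (L.P y) (dbar0 0 f y i) + a y i • f y) = 0 := by
      rw [← h2, smul_add, smul_comm (a y i) (c y)]
      abel
    rw [h3, Pi.zero_apply, smul_zero, add_zero] at h4
    exact (smul_eq_zero.1 h4).resolve_right hy0.1
  refine ⟨c, f, holAt_of_dbar0 ?_, ?_⟩
  · filter_upwards [hne, hdc] with y hy hy2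
    exact ⟨(hcat y hy).of_le one_le_infty, hy2⟩
  · filter_upwards [hf0, hcf] with y hy hy2
    exact ⟨hy.1, hy2⟩

theorem interior_zero_closed {L : LB M ι} {a : M → Fin 2 → ℂ} (hF : H378.HasFrames L a)
    {α : M → EuclideanSpace ℂ ι} (hα : Reg0 ∞ 0 α) (hs : L.Sec α)
    (hd : ∀ x i, L.db0 a 0 α x i = 0) : IsClosed (interior {x | α x = 0}) := by
  rw [← closure_subset_iff_isClosed]
  intro x hx
  obtain ⟨c, f, hc, hcf⟩ := exists_coef hF hα hs hd x
  have han : ∀ᶠ z in 𝓝 (chartAt C2 x x), AnalyticAt ℂ (loc0 0 (chartAt C2 x) c) z :=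
    hc.chart (chart_mem_atlas C2 x) (mem_chart_source C2 x) |>.eventually_analyticAt
  have htar : ∀ᶠ z in 𝓝 (chartAt C2 x x), z ∈ (chartAt C2 x).target :=
    (chartAt C2 x).open_target.mem_nhds (mem_chart_target C2 x)
  have hcf' : ∀ᶠ z in 𝓝 (chartAt C2 x x), f ((chartAt C2 x).symm z) ≠ 0 ∧
      α ((chartAt C2 x).symm z) = c ((chartAt C2 x).symm z) • f ((chartAt C2 x).symm z) :=
    (tendsto_symm_nhds (mem_chart_source C2 x)).eventually hcf
  obtain ⟨r, hr, hball⟩ := Metric.eventually_nhds_iff_ball.1 (han.and (htar.and hcf'))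
  have hV : ∀ᶠ y in 𝓝 x, y ∈ (chartAt C2 x).source ∧
      chartAt C2 x y ∈ Metric.ball (chartAt C2 x x) r := by
    refine Filter.Eventually.and ((chartAt C2 x).open_source.mem_nhds (mem_chart_source C2 x)) ?_
    exact ((chartAt C2 x).continuousAt (mem_chart_source C2 x)).eventually
      (Metric.ball_mem_nhds _ hr)
  obtain ⟨y, ⟨hy1, hy2⟩, hy3⟩ := mem_closure_iff_nhds.1 hx _ hV
  -- `c = 0` near `y`
  have hy0 : ∀ᶠ z in 𝓝 y, α z = 0 := by
    rw [mem_interior_iff_mem_nhds] at hy3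
    exact hy3
  have hloc : loc0 0 (chartAt C2 x) c =ᶠ[𝓝 (chartAt C2 x y)] 0 := by
    have h1 : ∀ᶠ z in 𝓝 (chartAt C2 x y), α ((chartAt C2 x).symm z) = 0 :=
      (tendsto_symm_nhds hy1).eventually hy0
    have h2 : ∀ᶠ z in 𝓝 (chartAt C2 x y), z ∈ Metric.ball (chartAt C2 x x) r :=
      Metric.isOpen_ball.mem_nhds hy2
    filter_upwards [h1, h2] with z hz1 hz2
    have h3 := (hball z hz2).2.2
    rw [hz1] at h3
    have h4 : c ((chartAt C2 x).symm z) = 0 := (smul_eq_zero.1 h3.2.symm).resolve_right h3.1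
    simp [loc0, h4]
  have hzero : EqOn (loc0 0 (chartAt C2 x) c) 0 (Metric.ball (chartAt C2 x x) r) :=
    AnalyticOnNhd.eqOn_zero_of_preconnected_of_eventuallyEq_zero
      (fun z hz => (hball z hz).1) (convex_ball _ _).isPreconnected hy2 hloc
  rw [mem_interior_iff_mem_nhds]
  filter_upwards [hV] with z hz
  have h1 := hzero hz.2
  have h2 := (hball _ hz.2).2.2.2
  rw [(chartAt C2 x).left_inv hz.1] at h2
  have h3 : c z = 0 := by
    rw [loc0_source hz.1] at h1
    simpa using h1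
  show α z = 0
  rw [h2, h3, zero_smul]

theorem dense_ne_zero [PreconnectedSpace M] {L : LB M ι} {a : M → Fin 2 → ℂ}
    (hF : H378.HasFrames L a) {α : M → EuclideanSpace ℂ ι} (hα : Reg0 ∞ 0 α) (hs : L.Sec α)
    (hd : ∀ x i, L.db0 a 0 α x i = 0) {x₀ : M} (hx₀ : α x₀ ≠ 0) : Dense {x | α x ≠ 0} := by
  have hcl : IsClopen (interior {x | α x = 0}) := ⟨interior_zero_closed hF hα hs hd, isOpen_interior⟩
  rcases isClopen_iff.1 hcl with h | h
  · have := interior_eq_empty_iff_dense_compl.1 h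
    exact this
  · exfalso
    have : x₀ ∈ interior {x | α x = 0} := by rw [h]; trivial
    have h2 : x₀ ∈ {x | α x = 0} := interior_subset this
    exact hx₀ h2

/-! ### assembly -/

theorem exists_f_ge (D : XTData M) [Nonempty M] (t : ℝ) : ∃ x, t ≤ D.f x := by
  obtain ⟨x⟩ := ‹Nonempty M›
  refine ⟨D.sh ⌈t - D.f x⌉ x, ?_⟩
  rw [D.f_sh]
  have := Int.le_ceil (t - D.f x)
  linarith

/-- **XA-FIN**: all data of XT-CONE from the interface propositions of XT-AN. -/
theorem xtCone_of [ConnectedSpace M] (D : XTData M) {L : LB M ι} {i₀ : ι} {a : M → Fin 2 → ℂ}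
    {R N d d' : ℝ} (hd : 0 < d) (hdd : d < d') (hN : d + d' ≤ N)
    (hE : D.EndTriv L i₀ a R N)
    (hroot : D.RootGap d')
    (hfr : H378.HasFrames L a)
    (hTE : D.T1 L a (-d) 0)
    (hTE' : D.T1 L.dual (neg a) (-d) 1)
    (hTO : D.T1 (LB.triv i₀) (fun _ _ => 0) (-d) 0)
    (hTO' : ∀ δ, 0 < δ → δ ≤ d' → D.T1 (LB.triv i₀) (fun _ _ => 0) δ 0)
    (hT2 : ∃ C, D.T2 L.dual (neg a) (ew (-d)) C)
    (hain : ∀ (α : M → EuclideanSpace ℂ ι) (b : ℂ), Reg0 ∞ 0 α → L.Sec α →
      (∀ x i, L.db0 a 0 α x i = 0) → Tendsto (fun x => α x i₀) (comap D.f atTop) (𝓝 1) →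
      Tendsto (fun x => α x i₀) (comap D.f atBot) (𝓝 b) → b = 0) :
    ∃ (α : M → EuclideanSpace ℂ ι) (R' : ℝ), XtCone D L a i₀ R' α d d' := by
  have hd' : 0 < d' := hd.trans hdd
  obtain ⟨α, b, R₀, A, hR₀, hRR₀, hA, hαreg, hαsec, hαhol, hαout, hαbd, hαin⟩ :=
    exists_alpha D hd hdd hN hE hroot hTE (t1s_of_T1 D (hTO' d' hd' le_rfl))
  have hout1 : Tendsto (fun x => α x i₀) (comap D.f atTop) (𝓝 1) := by
    have h1 : Tendsto (fun x => A * Real.exp (-d * D.f x)) (comap D.f atTop) (𝓝 0) := by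
      have h2 : Tendsto (fun t : ℝ => A * Real.exp (-d * t)) atTop (𝓝 0) := by
        have h3 : Tendsto (fun t : ℝ => -d * t) atTop atBot :=
          tendsto_id.const_mul_atTop_of_neg (by linarith)
        have h4 := (Real.tendsto_exp_atBot.comp h3).const_mul A
        simpa using h4
      exact h2.comp tendsto_comap
    rw [tendsto_iff_norm_sub_tendsto_zero]
    refine squeeze_zero' (Eventually.of_forall fun x => norm_nonneg _) ?_ h1
    have h5 : ∀ᶠ x in comap D.f atTop, R₀ ≤ D.f x :=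
      tendsto_comap.eventually (eventually_ge_atTop R₀)
    filter_upwards [h5] with x hx
    have h6 := (norm_apply_le (α x - eb i₀) i₀).trans (hαout x hx)
    simpa using h6
  have hin1 : Tendsto (fun x => α x i₀) (comap D.f atBot) (𝓝 b) := by
    have h1 : Tendsto (fun x => A * Real.exp (d' * D.f x)) (comap D.f atBot) (𝓝 0) := by
      have h2 : Tendsto (fun t : ℝ => A * Real.exp (d' * t)) atBot (𝓝 0) := by
        have h3 : Tendsto (fun t : ℝ => d' * t) atBot atBot :=
          tendsto_id.const_mul_atBot hd'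
        have h4 := (Real.tendsto_exp_atBot.comp h3).const_mul A
        simpa using h4
      exact h2.comp tendsto_comap
    rw [tendsto_iff_norm_sub_tendsto_zero]
    refine squeeze_zero' (Eventually.of_forall fun x => norm_nonneg _) ?_ h1
    have h5 : ∀ᶠ x in comap D.f atBot, D.f x ≤ 0 :=
      tendsto_comap.eventually (eventually_le_atBot 0)
    filter_upwards [h5] with x hx
    exact hαin x hx
  have hb : b = 0 := hain α b hαreg hαsec hαhol hout1 hin1
  have hαcont : Continuous (fun x => ‖α x‖) := hαreg.continuous.norm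
  obtain ⟨C₃, hC₃, hC₃'⟩ := bdd_on D hαcont (-R₀) 0
  have hin2 : ∀ x, D.f x ≤ 0 → ‖α x‖ ≤ (A + C₃ * Real.exp (d' * R₀)) * Real.exp (d' * D.f x) := by
    intro x hx
    have he : 0 < Real.exp (d' * D.f x) := Real.exp_pos _
    rcases le_total (D.f x) (-R₀) with h | h
    · have hP : L.P x = Matrix.single i₀ i₀ 1 := by
        apply hE.ends
        rw [abs_of_nonpos hx]
        linarith
      have h1 : α x = α x i₀ • eb i₀ := by
        have := hαsec x
        rw [hP, act_single] at this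
        exact this.symm
      rw [h1, norm_smul, norm_eb, mul_one]
      have h2 := hαin x hx
      rw [hb, sub_zero] at h2
      refine h2.trans (mul_le_mul_of_nonneg_right ?_ he.le)
      have : 0 ≤ C₃ * Real.exp (d' * R₀) := by positivity
      linarith
    · refine (hC₃' x h hx).trans ?_
      have : 1 ≤ Real.exp (d' * R₀) * Real.exp (d' * D.f x) := by
        rw [← Real.exp_add]
        apply Real.one_le_exp
        nlinarith
      have h3 : C₃ ≤ C₃ * (Real.exp (d' * R₀) * Real.exp (d' * D.f x)) := by nlinarith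
      have h4 : 0 ≤ A * Real.exp (d' * D.f x) := by positivity
      calc C₃ ≤ C₃ * (Real.exp (d' * R₀) * Real.exp (d' * D.f x)) := h3
        _ ≤ A * Real.exp (d' * D.f x) + C₃ * (Real.exp (d' * R₀) * Real.exp (d' * D.f x)) := by
            linarith
        _ = _ := by ring
  set R' : ℝ := R₀ + A / d with hR'
  have hAd : 0 ≤ A / d := by positivity
  have hout2 : ∀ x, R' ≤ D.f x → α x ≠ 0 := by
    intro x hx h0
    have h1 := hαout x (by linarith)
    rw [h0, zero_sub, norm_neg, norm_eb] at h1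
    have h2 : A ≤ d * D.f x := by
      have h3 : A / d ≤ D.f x := by linarith
      have h4 := mul_le_mul_of_nonneg_left h3 hd.le
      have h5 : d * (A / d) = A := by field_simp
      linarith
    have h3 : Real.exp (-d * D.f x) ≤ Real.exp (-A) := Real.exp_le_exp.2 (by linarith)
    have h4 : A * Real.exp (-A) < 1 := by
      have h5 := Real.add_one_le_exp A
      have h6 : Real.exp (-A) * Real.exp A = 1 := by rw [← Real.exp_add]; simp
      nlinarith [Real.exp_pos (-A)]
    have h5 : A * Real.exp (-d * D.f x) ≤ A * Real.exp (-A) := mul_le_mul_of_nonneg_left h3 hA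
    linarith
  have hO := t1s_of_T1 D hTO
  refine ⟨α, R', ?_⟩
  refine
    { d_pos := hd
      d_lt := hdd
      R_pos := by linarith
      hol := hE.hol
      triv := fun x hx => hE.ends x (by linarith)
      a_in := ?_
      α_reg := hαreg
      α_sec := hαsec
      α_hol := hαhol
      α_bdd := ?_
      α_in := ⟨_, hin2⟩
      α_out := hout2
      α_dense := ?_
      A0 := ?_
      A1 := ?_
      A2 := ?_
      A3 := ?_
      A5 := ?_ }
  · -- a_in
    obtain ⟨C₀, hC₀⟩ := hE.decay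
    refine ⟨|C₀|, fun x hx => (hC₀ x).trans ?_⟩
    refine mul_le_mul (le_abs_self _) (Real.exp_le_exp.2 ?_) (Real.exp_pos _).le (abs_nonneg _)
    rw [abs_of_nonpos hx]
    nlinarith
  · -- α_bdd
    refine ⟨A + (A + C₃ * Real.exp (d' * R₀)), fun x => ?_⟩
    have h0 : 0 ≤ A + C₃ * Real.exp (d' * R₀) := by positivity
    rcases le_total 0 (D.f x) with h | h
    · linarith [hαbd x h]
    · refine (hin2 x h).trans ?_
      have : Real.exp (d' * D.f x) ≤ 1 := Real.exp_le_one_iff.2 (by nlinarith)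
      nlinarith
  · -- α_dense
    obtain ⟨x₀, hx₀⟩ := exists_f_ge D R'
    exact dense_ne_zero hfr hαreg hαsec hαhol (hout2 x₀ hx₀)
  · -- A0
    rintro u ⟨hu, C, hC⟩ hu0
    refine hroot.inn u d d hd le_rfl hu hu0 ⟨C, fun x => ?_⟩
    rw [max_self]
    have := hC x
    rwa [neg_mul] at this
  · -- A1
    rintro w ⟨hw, C, hC⟩ hw0
    obtain ⟨u, hu, hbu, hdu⟩ := hO w hw ⟨C, hC⟩ hw0
    exact ⟨u, ⟨hu, hbu⟩, hdu⟩
  · -- A2
    rintro w hws ⟨hw, C, hC⟩
    obtain ⟨C', hC'⟩ := hT2
    have hC0 : ∀ x, n2 D.h 0 w x ≤ |C| * Real.exp (-d * D.f x) := fun x =>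
      (hC x).trans (mul_le_mul_of_nonneg_right (le_abs_self _) (Real.exp_pos _).le)
    obtain ⟨v, hv, hvs, hdv, hvb⟩ := hC' w hw hws (|C| * Real.exp |(-d)|) (by positivity)
      (prof_le_ew D (abs_nonneg _) hC0)
    exact ⟨v, hvs, ⟨hv, _, le_of_prof_ew D (continuous_n1 D.herm hv) hvb⟩, hdv⟩
  · -- A3
    intro η₁ η₂ hs₁ hw₁ hc₁ hs₂ hw₂ hc₂
    have key : ∀ η : M → Fin 2 → EuclideanSpace ℂ ι, W1 D d η →
        ∃ A, ∀ j, D.p1 0 η j ≤ A * ew (-d) j := by
      rintro η ⟨hη, C, hC⟩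
      have hC0 : ∀ x, n1 D.h 0 η x ≤ |C| * Real.exp (-d * D.f x) := fun x =>
        (hC x).trans (mul_le_mul_of_nonneg_right (le_abs_self _) (Real.exp_pos _).le)
      exact ⟨_, prof_le_ew D (abs_nonneg _) hC0⟩
    obtain ⟨c, hc, u, hu, hus, ⟨A', hA'⟩, hdu⟩ := hTE' ![η₁, η₂] (by
      intro i
      fin_cases i
      · exact ⟨hw₁.reg, hs₁, key _ hw₁, hc₁⟩
      · exact ⟨hw₂.reg, hs₂, key _ hw₂, hc₂⟩)
    refine ⟨c 0, c 1, ?_, u, hus, ⟨hu, |A'| * Real.exp |(-d)|, fun x => ?_⟩, fun x k => ?_⟩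
    · by_contra h
      push Not at h
      apply hc
      funext i
      fin_cases i
      · exact h.1
      · exact h.2
    · have := le_of_prof_ew D (continuous_n0 D.herm hu) hA' x
      rwa [n0_zero_exp] at this
    · rw [hdu x k, Fin.sum_univ_two]
      rfl
  · -- A5
    rintro u ⟨hu, C, hC⟩ ε hε ⟨C', hC'⟩
    have hm : 0 < min ε d' := lt_min hε hd'
    have hm1 : min ε d' ≤ d' := min_le_right _ _
    obtain ⟨b', A', hb'⟩ := lim_in D hroot hm hm1 (t1s_of_T1 D (hTO' _ hm hm1)) hu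
      (C := |C|) (fun x hx => by
        refine (hC x).trans (mul_le_mul (le_abs_self _) (Real.exp_le_exp.2 ?_)
          (Real.exp_pos _).le (abs_nonneg _))
        nlinarith)
      (C' := |C'|) (fun x hx => by
        refine (hC' x hx).trans (mul_le_mul (le_abs_self _) (Real.exp_le_exp.2 ?_)
          (Real.exp_pos _).le (abs_nonneg _))
        exact mul_le_mul_of_nonpos_right (min_le_left _ _) hx)
    exact ⟨b', min ε d', hm, A', hb'⟩

end Vale.Agent.P267.H706
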