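import Vale.Agent.P267.H706.Fin
import Vale.Agent.P267.H181.Frm
import Vale.Agent.P267.H877.Leaves

/-!
# P267 / XA-FIN (helper706): the final theorem in the form of `H877/Leaves.lean`
-/

open scoped Manifold ContDiff ComplexConjugate Matrix Topology
open MeasureTheory Set Filter

noncomputable section

namespace Vale.Agent.P267.H706

open Vale.Agent.P267.FL Vale.Agent.P267.XT Vale.Agent.P267.H692

variable {M : Type} [TopologicalSpace M] [T2Space M] [ConnectedSpace M] [ChartedSpace C2 M]
  [IsManifold 𝓘(ℂ, C2) ω M]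

/-- **XA-FIN** -/
theorem finLeaf (D : XTData M) : D.FinLeaf := by
  intro ι _ _ L i₀ a R N d d' hd hdd hN hE hroot hTE hTE' hTO hTO' ⟨C, _, hT2⟩ hain
  exact xtCone_of D hd hdd hN hE hroot (H181.hasFrames hE.hol) hTE hTE' hTO hTO' ⟨C, hT2⟩ hain

end Vale.Agent.P267.H706
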